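import Mathlib
import Vale.Agent.P066.TwoStep

/-!
For every natural unit interval graph the coefficients, on products of elementary functions with all
parts at most three, of the chromatic quasisymmetric function lie in `N[q]`; for clique number at
most three all coefficients do.
-/

open scoped BigOperators

namespace Vale.Agent.Results.P066.PartsAtMostThree

open Vale.Agent.P066

/-- one family of `N[q]` coefficients gives the expansion in at most three colours for every
natural unit interval graph, and in every number of colours when there is no clique on four
vertices (no `i` with `i + 3 < n` and `i + 3 ≤ h i`). -/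
theorem result (n : ℕ) (h : ℕ → ℕ)
    (hmono : ∀ i j, i ≤ j → j < n → h i ≤ h j)
    (hlow : ∀ i, i < n → i ≤ h i) :
    ∃ c : n.Partition → Polynomial ℕ, ∀ N : ℕ,
      (N ≤ 3 ∨ ∀ i, i + 3 < n → h i < i + 3) →
      (∑ f ∈ Finset.univ.filter (fun f : Fin n → Fin N =>
          ∀ a b : Fin n, a < b → (b : ℕ) ≤ h a → f a ≠ f b),
        MvPolynomial.C ((Polynomial.X : Polynomial ℤ) ^ (Finset.univ.filter
            (fun p : Fin n × Fin n => p.1 < p.2 ∧ (p.2 : ℕ) ≤ h p.1 ∧ f p.1 < f p.2)).card) *
          ∏ a, (MvPolynomial.X (f a) : MvPolynomial (Fin N) (Polynomial ℤ))) =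
      ∑ p : n.Partition, MvPolynomial.C ((c p).map (Nat.castRingHom ℤ)) *
        MvPolynomial.esymmPart (Fin N) (Polynomial ℤ) p := by
  classical
  by_cases hw : ∀ i, i + 3 < n → h i < i + 3
  · let g : ℕ → ℕ := fun i => min (h i) (i + 2)
    have hg : ∀ a b : Fin n, a < b → ((b : ℕ) ≤ g a ↔ (b : ℕ) ≤ h a) := by
      intro a b _
      simp only [g]
      rcases lt_or_ge ((a : ℕ) + 3) n with h1 | h1
      · have := hw a h1
        omega
      · have := b.isLt
        omega
    obtain ⟨c, hc⟩ := TwoStep.two_step_expansion n g
      (fun i j hij hj => by
        simp only [g]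
        have := hmono i j hij hj
        omega)
      (fun i hi => by
        simp only [g]
        have := hlow i hi
        omega)
      (fun i _ => min_le_right _ _)
    refine ⟨c, fun N _ => ?_⟩
    rw [← hc N]
    refine Finset.sum_congr (Finset.filter_congr fun f _ => ?_) fun f _ => ?_
    · exact forall_congr' fun a => forall_congr' fun b => imp_congr_right fun hab => by
        rw [hg a b hab]
    · congr 4
      refine Finset.filter_congr fun p _ => ?_
      exact and_congr_right fun hp => by rw [hg _ _ hp]
  · push_neg at hw
    obtain ⟨i, hi, hh⟩ := hw
    refine ⟨fun _ => 0, fun N hN => ?_⟩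
    rcases hN with hN | hN
    · have he : (Finset.univ.filter (fun f : Fin n → Fin N =>
          ∀ a b : Fin n, a < b → (b : ℕ) ≤ h a → f a ≠ f b)) = ∅ := by
        refine Finset.filter_eq_empty_iff.2 fun f _ hf => ?_
        have hinj : Function.Injective
            (fun k : Fin 4 => f ⟨i + k, by have := k.isLt; omega⟩) := by
          intro k l hkl
          by_contra hne
          rcases lt_or_gt_of_ne (fun hv => hne (Fin.ext hv) : (k : ℕ) ≠ l) with hlt | hlt
          · refine hf ⟨i + k, by have := l.isLt; omega⟩ ⟨i + l, by have := l.isLt; omega⟩ ?_ ?_ hkl
            · exact Fin.mk_lt_mk.2 (by omega)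
            · have := hmono i (i + k) (by omega) (by have := l.isLt; omega)
              have := l.isLt
              simp only
              omega
          · refine hf ⟨i + l, by have := k.isLt; omega⟩ ⟨i + k, by have := k.isLt; omega⟩ ?_ ?_
              hkl.symm
            · exact Fin.mk_lt_mk.2 (by omega)
            · have := hmono i (i + l) (by omega) (by have := k.isLt; omega)
              have := k.isLt
              simp only
              omega
        have := Fintype.card_le_of_injective _ hinj
        simp only [Fintype.card_fin] at this
        omega
      rw [he]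
      simp
    · exact absurd (hN i hi) (by omega)

end Vale.Agent.Results.P066.PartsAtMostThree
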